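import Vale.Agent.P322R13.Br

open MeasureTheory Vale.Agent.P322R13

/-- The Courtade-Kumar inequality for random variables on any probability space. -/
theorem Vale.Agent.Results.P322.ARandomVariables.result :
    (∀ (Ω : Type) [MeasurableSpace Ω] (P : Measure Ω) (n : ℕ) (ε : ℝ) (X : Ω → Fin n → ℤˣ)
      (Z : Fin n → Ω → ℤˣ), 0 ≤ ε → ε ≤ 1 / 2 → Channel P ε X Z →
      ∀ (f : (Fin n → ℤˣ) → ℤˣ) (U : Ω → ℤˣ) (Y : Ω → Fin n → ℤˣ), (∀ ω, U ω = f (X ω)) →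
      (∀ ω i, Y ω i = X ω i * Z i ω) →
      relEnt P U Y ≠ ⊤ ∧ info P U Y = ent P U + ent P Y - ent P (fun ω => (U ω, Y ω)) ∧
      info P U Y ≤ 1 - hTwo ε ∧
      ((∃ (i : Fin n) (s : ℤˣ), ∀ x, f x = s * x i) → info P U Y = 1 - hTwo ε) ∧
      (0 < ε → ε < 1 / 2 → info P U Y = 1 - hTwo ε →
        ∃ (i : Fin n) (s : ℤˣ), ∀ x, f x = s * x i)) ∧
    ∀ (n : ℕ) (ε : ℝ), 0 ≤ ε → ε ≤ 1 / 2 →
      ∃ (Ω : Type) (_ : MeasurableSpace Ω) (P : Measure Ω) (X : Ω → Fin n → ℤˣ)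
        (Z : Fin n → Ω → ℤˣ), Channel P ε X Z := by
  refine ⟨fun Ω _ P n ε X Z h0 h1 h f U Y hU hY => ?_,
    fun n ε h0 h1 => exists_channel n h0 (by linarith)⟩
  obtain rfl : U = fun ω => f (X ω) := funext hU
  obtain rfl : Y = fun ω i => X ω i * Z i ω := funext fun ω => funext (hY ω)
  obtain ⟨a, b, c⟩ := h.info_eq f
  refine ⟨a, b, ?_⟩
  rw [c]
  exact ⟨Vale.Agent.P322.courtade_kumar n f ε h0 h1,
    fun ⟨_, _, e⟩ => Vale.Agent.P322.H903.dictator_eq h0 (by linarith) e,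
    fun k0 k1 => (Vale.Agent.P322.H903.equality_iff k0 k1 n f).1⟩
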